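import Vale.Agent.P323.Series

universe u

namespace Vale.Agent.Results.P323.PermutationModels

open Vale.Agent.P323 Cardinal

/-- What the Partition Principle forces on the group and filter of a permutation model. -/
theorem result (G : Type u) [Group G] (F : Set (Subgroup G)) (hF : IsNormalFilter F) :
    (PartitionPrinciple F →
      (∃ L₀ ∈ F, (∀ H ∈ F, ∃ g, conjBy g L₀ ≤ H) ∧
        ∀ K ∈ F, K ≤ L₀ → ∃ T ∈ F, ∀ H ∈ F, H ≤ T → ∃ g, H = T ⊓ conjBy g K) ∧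
      ((∀ L ∈ F, ∀ g, ¬ conjBy g L < L) →
        ∃ L₀ ∈ F, ∀ (X : Type u) (_ : MulAction G X), Smooth F X →
          ∀ g ∈ L₀, ∀ x : X, g • x = x)) ∧
    (ModelPartitionPrinciple F →
      (∀ B ∈ F, ∃ N ∈ F, NormalIn N B ∧ (∀ Q ∈ F, NormalIn Q B → N ≤ Q) ∧
        ∀ Q ∈ F, NormalIn Q N → Q = N) ∧
      ((∃ (k : ℕ) (D : ℕ → Subgroup G), (∀ i, (D i).Normal) ∧ (∀ H ∈ F, D 0 ≤ H) ∧ D k = ⊤ ∧
          ∀ i < k,
            (∀ H ∈ F, D i ≤ H → ∀ d ∈ D (i + 1),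
              ¬ conjBy d (H ⊓ D (i + 1)) < H ⊓ D (i + 1)) ∨
            ∀ H ∈ F, D i ≤ H → #(D (i + 1) ⧸ H.subgroupOf (D (i + 1))) < 𝔠) ∨
          Group.IsSolvable G →
        ∃ L₀ ∈ F, ∀ (X : Type u) (_ : MulAction G X), Smooth F X →
          ∀ g ∈ L₀, ∀ x : X, g • x = x)) := by
  refine ⟨fun hPP => ?_, fun hPP => ⟨fun B hB => exists_perfect hF hPP hB, fun h => ?_⟩⟩
  · obtain ⟨L₀, hL₀F, hL₀⟩ := exists_universal hF hPP
    refine ⟨⟨L₀, hL₀F, hL₀, fun K hK hKL => exists_coding hF hPP hL₀ hK hKL⟩, fun hno => ?_⟩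
    refine ⟨L₀, hL₀F, fun X _ hX g hg x => ?_⟩
    obtain ⟨a, ha⟩ := hL₀ _ (hF.inf_mem _ _ (hX x) hL₀F)
    have heq : conjBy a L₀ = L₀ :=
      (ha.trans inf_le_right).lt_or_eq.resolve_left (hno L₀ hL₀F a)
    rw [heq] at ha
    exact MulAction.mem_stabilizer_iff.1 (ha hg).1
  · obtain ⟨L₀, hL₀F, hL₀⟩ : ∃ L₀ ∈ F, ∀ H ∈ F, L₀ ≤ H := by
      rcases h with ⟨k, D, hD, h0, hk, ht⟩ | hs
      · exact exists_least_of_series hF hPP k D hD h0 hk ht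
      · exact exists_least_of_solvable hF hPP
    exact ⟨L₀, hL₀F, fun X _ hX g hg x => MulAction.mem_stabilizer_iff.1 (hL₀ _ (hX x) hg)⟩

end Vale.Agent.Results.P323.PermutationModels
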